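import Vale.Agent.P141.H24.ResOf
import Vale.Agent.P141.H585.MainC

/-!
# P141, line W, end lemma: the residual part in the letters of `H585.MainC`
-/

namespace Vale.Agent.P141.H24

open Finset
open Vale.Agent.P141.PL (Pt)
open Vale.Agent.P141.PL.H315 (Tri)
open Vale.Agent.P141.PL.H95 (gr)
open Vale.Agent.P141.H347 (cd)
open Vale.Agent.P141.H8 (Fam2)
open Vale.Agent.P141.H911
open Vale.Agent.P141.H606 (RP)
open Vale.Agent.P141.H865 (RrO)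
open Vale.Agent.P141.H935 (Ys)
open Vale.Agent.P141.H585 (bthO)
open Vale.Agent.P141.H585M (Ctx Gm exm)
open Vale.Agent.P141.H998 (Bi)

noncomputable section

open scoped Classical

variable {s : ℤ} {τ : Equiv.Perm (Fin 4)} {gd ud : ℕ → ℤ → Prop} {Λ : ℕ} {x : ℤ}
  {C t e0 lam m1 κ μ Mm sg Lg : ℝ} {a : ℤ} {P GP D G1 : ℤ → ℝ} {B : Finset Bi} {cf : Bi → ℝ}
  {E : Bi → Finset ℤ × Finset ℤ × Finset ℤ} {v : Bi → Tri} {F : ℕ → ℤ → ℝ} {o : ℤ}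
  {nd : Finset (ℕ × ℤ)}

/-- **The residual part in numbers**, letters of `H585M.Ctx`. -/
theorem resM (h : Ctx s τ gd ud Λ x C t e0 lam m1 κ μ Mm a P GP D G1 B cf E v F)
    (ho : o = 1 ∨ o = -1) (hs : 0 < sg) (hLg : 512 * C ≤ Lg) (hκ1 : κ ≤ 1)
    {tp : ℕ → ℤ → ℕ} {W : Fin 2 → ℕ → ℤ → ℝ} {ee Kp : ℝ}
    (hF : Fam2 (gr 7 s) ud Λ tp W ee Kp) (hee : 0 < ee) (hKp : 0 ≤ Kp)
    {A : Fin 4 → ℕ → ℤ → ℝ} (h2 : ∀ k, A (τ 2) k = Ys ud tp (W 0) k)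
    (h3 : ∀ k, A (τ 3) k = Ys ud tp (W 1) k) :
    ((|dd τ 3 2| : ℤ) : ℝ) * ((36 * (4 : ℝ) ^ Λ)⁻¹ *
      RP τ o Λ nd A (RrO (lc τ 0) (bthO κ μ sg Lg cf E v) (Gm τ ud G1) (exm τ ud Λ) B)) ≤
      kRes κ μ sg Lg ee C Kp * (Mm * cd (gr 7 s) Λ x) := by
  have hC : 0 < C := by linarith [h.hC]
  exact tres_pos ho h.rgn hF h.enG hC.le hee hKp h.hκ hκ1 h.hμ hs (by linarith) hLg h.dec h.pos
    (fun k _ => h2 k) (fun k _ => h3 k)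

end

end Vale.Agent.P141.H24
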