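import Vale.Agent.P141.H865.Ker3
import Vale.Agent.P141.H911.Line
import Vale.Agent.P141.H606.Roots
import Vale.Agent.P141.H540.RNum
import Vale.Agent.P141.H38.TRes
import Vale.Agent.P141.H585.Bth0
import Vale.Agent.P141.H150.Mv23K
import Vale.Agent.P141.H379.Slot0

/-!
# P141, line W, end lemma (T_res): the residual part in numbers

`RP` of `H606/FB` with the residual kernel `RO` of `H865/Ker` (`= RrO` of `H865/FibI`):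
* `tres_gen`: any family of births, any moving slots with `LineH`, any gauge;
* `tres_fam`: slots and gauge cut by the used cells;
* `tres_bthO`: the births of the main family.
-/

namespace Vale.Agent.P141.H24

open Finset
open Vale.Agent.P141.PL (Pt el iv ix mem_iv cx tri card_iv)
open Vale.Agent.P141.PL.H315 (Tri)
open Vale.Agent.P141.H337 (ivm mem_ivm)
open Vale.Agent.P141.H911
open Vale.Agent.P141.H606 (RP RP_le)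
open Vale.Agent.P141.H865 (Bth Bth.mn kA evO rsO RO RO_cut Th_pt ptO)
open Vale.Agent.P141.H38 (lfm ga12 ga13 sbx bxU crn3 cx_crn3 sbx_sub tres_fib cP)
open Vale.Agent.P141.H540 (LineH ln rpart_num)
open Vale.Agent.P141.H585 (VC sd12 sd13 sd23 rC rC_mul thC pwC sd_pos)
open Vale.Agent.P141.H443 (E2)
open Vale.Agent.P141.H150.Mv (evE)

noncomputable section

open scoped Classical

/-- the number of the residual part -/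
def nRes (κ μ sg LG e nN nD nL : ℝ) : ℝ :=
  26016 * (2 * √(2 * (μ / κ ^ 4) * e) *
    √((4 + 24 * (μ / κ ^ 4) * LG / sg ^ 2) * nN * (nD + 192 * nL / κ ^ 8)) +
    3 / 2 * sg * (nD + 192 * nL / κ ^ 8))

variable {ι : Type*} {κ μ sg LG e nN nD nL : ℝ} {σ : Equiv.Perm (Fin 4)} {o : ℤ} {Λ : ℕ}
  {nd : Finset (ℕ × ℤ)} {A : Fin 4 → ℕ → ℤ → ℝ} {B : ι → Bth} {u : ι → Tri} {I : Finset ι}
  {G : ℤ → ℕ → ℤ → ℤ → ℝ} {ex : ℤ → ℕ → ℤ → ℤ → Prop} {Y X : ℕ → ℤ → ℝ}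

/-- the residual kernel on a used box, offsets of the corner -/
theorem rro_cut (hc : ∀ i ∈ I, 0 ≤ (B i).cp)
    (hG : ∀ x0 k n m, ¬ ex x0 k n m → ∀ x ∈ iv k n, ∀ y ∈ iv k m, G x0 k x y = G x0 (k + 1) x y)
    {k : ℕ} {m1 n q x0 x1 x2 x3 : ℤ} (h1 : x1 ∈ ivm k m1) (h2 : x2 ∈ ivm k n)
    (h3 : x3 ∈ ivm k q) :
    RO (lc σ 0) B (G x0) (ex x0) I x1 k (ix k x2) (ix k x3) x2 x3 =
      ∑ i ∈ I.filter (fun i => k ≤ (B i).K), ((B i).a * (B i).b) *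
        ∑ θ ∈ Th (cP σ) (B i).K (crn3 k (m1, n, q)) (B i).q,
          ga12 (B i).K (B i).q (B i).th (B i).S1 (B i).S2 (B i).S3 (B i).v θ k x1 x2 *
            ga13 (B i).K (B i).q (B i).th (B i).S1 (B i).S2 (B i).S3 (B i).v θ k x1 x3 *
            rsO (B i) (G x0) (ex x0) θ k x2 x3 := by
  have e2 : ix k x2 = n := mem_iv.1 h2
  have e3 : ix k x3 = q := mem_iv.1 h3
  rw [e2, e3, RO_cut hc (hG x0) h2 h3]
  refine sum_congr rfl fun i hi => ?_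
  rw [Th_pt (lc σ 0) (mem_filter.1 hi).2 (B i).q h1 n q]
  rfl

/-- the form of one atom, one offset, one box -/
def fRes (σ : Equiv.Perm (Fin 4)) (B : Bth) (G : ℤ → ℕ → ℤ → ℤ → ℝ)
    (ex : ℤ → ℕ → ℤ → ℤ → Prop) (Y X : ℕ → ℤ → ℝ) (θ : Pt) (x0 : ℤ) (k : ℕ) (m : Pt) : ℝ :=
  |tri k m (lfm (ga12 B.K B.q B.th B.S1 B.S2 B.S3 B.v θ) (0 + dd σ 3 0 * x0) (dd σ 3 1)
    (dd σ 3 2) Y k) (rsO B (G x0) (ex x0) θ k)
    (lfm (ga13 B.K B.q B.th B.S1 B.S2 B.S3 B.v θ) (0 + dd σ 2 0 * x0) (dd σ 2 1) (dd σ 2 3) X k)|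

theorem fRes_nonneg (σ : Equiv.Perm (Fin 4)) (B : Bth) (G : ℤ → ℕ → ℤ → ℤ → ℝ)
    (ex : ℤ → ℕ → ℤ → ℤ → Prop) (Y X : ℕ → ℤ → ℝ) (θ : Pt) (x0 : ℤ) (k : ℕ) (m : Pt) :
    0 ≤ fRes σ B G ex Y X θ x0 k m := abs_nonneg _

theorem fRes_eq (B : Bth) {k : ℕ} (hk : 1 ≤ k) (hY : ∀ k, 1 ≤ k → A (σ 3) k = Y k)
    (hX : ∀ k, 1 ≤ k → A (σ 2) k = X k) (θ : Pt) (x0 : ℤ) (m : Pt) : |tri k m
      (fun x1 x2 => ga12 B.K B.q B.th B.S1 B.S2 B.S3 B.v θ k x1 x2 *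
        Yz σ (fun s => A s k) x0 x1 x2) (rsO B (G x0) (ex x0) θ k)
      (fun x1 x3 => ga13 B.K B.q B.th B.S1 B.S2 B.S3 B.v θ k x1 x3 *
        Xz σ (fun s => A s k) x0 x1 x3)| = fRes σ B G ex Y X θ x0 k m := by
  have e1 : (fun x1 x2 => ga12 B.K B.q B.th B.S1 B.S2 B.S3 B.v θ k x1 x2 *
      Yz σ (fun s => A s k) x0 x1 x2) = lfm (ga12 B.K B.q B.th B.S1 B.S2 B.S3 B.v θ)
        (0 + dd σ 3 0 * x0) (dd σ 3 1) (dd σ 3 2) Y k := by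
    funext x1 x2
    rw [Yz_ln, hY k hk]
    rfl
  have e2 : (fun x1 x3 => ga13 B.K B.q B.th B.S1 B.S2 B.S3 B.v θ k x1 x3 *
      Xz σ (fun s => A s k) x0 x1 x3) = lfm (ga13 B.K B.q B.th B.S1 B.S2 B.S3 B.v θ)
        (0 + dd σ 2 0 * x0) (dd σ 2 1) (dd σ 2 3) X k := by
    funext x1 x3
    rw [Xz_ln, hX k hk]
    rfl
  rw [e1, e2]
  rfl

/-- the residual kernel -/
def rkO (σ : Equiv.Perm (Fin 4)) (B : ι → Bth) (G : ℤ → ℕ → ℤ → ℤ → ℝ)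
    (ex : ℤ → ℕ → ℤ → ℤ → Prop) (I : Finset ι) (k : ℕ) (x0 x1 x2 x3 : ℤ) : ℝ :=
  RO (lc σ 0) B (G x0) (ex x0) I x1 k (ix k x2) (ix k x3) x2 x3

/-- the births over the scale -/
def bsO (B : ι → Bth) (I : Finset ι) (k : ℕ) : Finset ι := I.filter fun i => k ≤ (B i).K

/-- the offsets over a box -/
def thO (σ : Equiv.Perm (Fin 4)) (B : ι → Bth) (i : ι) (k : ℕ) (m : ℤ × ℤ × ℤ) : Finset Pt :=
  Th (cP σ) (B i).K (crn3 k m) (B i).q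

/-- the two gauges -/
def g12 (B : ι → Bth) (i : ι) (θ : Pt) (k : ℕ) (x y : ℤ) : ℝ :=
  ga12 (B i).K (B i).q (B i).th (B i).S1 (B i).S2 (B i).S3 (B i).v θ k x y

@[inherit_doc g12]
def g13 (B : ι → Bth) (i : ι) (θ : Pt) (k : ℕ) (x y : ℤ) : ℝ :=
  ga13 (B i).K (B i).q (B i).th (B i).S1 (B i).S2 (B i).S3 (B i).v θ k x y

/-- the residual of one atom -/
def rsW (B : ι → Bth) (G : ℤ → ℕ → ℤ → ℤ → ℝ) (ex : ℤ → ℕ → ℤ → ℤ → Prop) (i : ι) (θ : Pt)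
    (k : ℕ) (x0 x2 x3 : ℤ) : ℝ := rsO (B i) (G x0) (ex x0) θ k x2 x3

theorem rkO_cut (hc : ∀ i ∈ I, 0 ≤ (B i).cp)
    (hG : ∀ x0 k n m, ¬ ex x0 k n m → ∀ x ∈ iv k n, ∀ y ∈ iv k m, G x0 k x y = G x0 (k + 1) x y)
    {k : ℕ} {m1 n q x0 x1 x2 x3 : ℤ} (h1 : x1 ∈ ivm k m1) (h2 : x2 ∈ ivm k n)
    (h3 : x3 ∈ ivm k q) : rkO σ B G ex I k x0 x1 x2 x3 =
      ∑ i ∈ bsO B I k, ((B i).a * (B i).b) * ∑ θ ∈ thO σ B i k (m1, n, q),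
        g12 B i θ k x1 x2 * g13 B i θ k x1 x3 * rsW B G ex i θ k x0 x2 x3 :=
  rro_cut hc hG h1 h2 h3

theorem tri_eq (hY : ∀ k, 1 ≤ k → A (σ 3) k = Y k) (hX : ∀ k, 1 ≤ k → A (σ 2) k = X k)
    {k : ℕ} (hk : 1 ≤ k) (i : ι) (θ : Pt) (x0 : ℤ) (m : Pt) : |tri k m
      (fun x1 x2 => g12 B i θ k x1 x2 * Yz σ (fun s => A s k) x0 x1 x2) (rsW B G ex i θ k x0)
      (fun x1 x3 => g13 B i θ k x1 x3 * Xz σ (fun s => A s k) x0 x1 x3)| =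
        fRes σ (B i) G ex Y X θ x0 k m := fRes_eq (B i) hk hY hX θ x0 m

/-- the residual part as a sum over births, offsets and boxes, raw letters -/
theorem rp_sum0 (hc : ∀ i ∈ I, 0 ≤ (B i).cp)
    (hG : ∀ x0 k n m, ¬ ex x0 k n m → ∀ x ∈ iv k n, ∀ y ∈ iv k m,
      G x0 k x y = G x0 (k + 1) x y) :
    RP σ o Λ nd A (rkO σ B G ex I) ≤ ∑ k ∈ Icc 1 Λ, ((2 : ℝ) ^ k)⁻¹ *
      ∑ m0 ∈ Ico (0 : ℤ) (6 * 2 ^ (Λ - k)), ∑ m1 ∈ Ico (0 : ℤ) (6 * 2 ^ (Λ - k)),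
        ∑ n ∈ Uz σ o (vk nd k) m0 m1, ∑ j ∈ bsO B I k, |(B j).a * (B j).b| *
          ∑ θ ∈ thO σ B j k (m1, n, qz o m0 m1 n), ∑ x0 ∈ ivm k m0,
            |tri k (m1, n, qz o m0 m1 n)
              (fun x1 x2 => g12 B j θ k x1 x2 * Yz σ (fun s => A s k) x0 x1 x2)
              (rsW B G ex j θ k x0)
              (fun x1 x3 => g13 B j θ k x1 x3 * Xz σ (fun s => A s k) x0 x1 x3)| :=
  RP_le σ o (bsO B I) (fun i => (B i).a * (B i).b) (thO σ B) (g12 B) (rsW B G ex) (g13 B)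
    (fun _ _ _ _ _ _ _ _ _ h1 _ h2 _ h3 => rkO_cut hc hG h1 h2 h3)

/-- the residual part as a sum over births, offsets and boxes -/
theorem rp_sum (hc : ∀ i ∈ I, 0 ≤ (B i).cp)
    (hY : ∀ k, 1 ≤ k → A (σ 3) k = Y k) (hX : ∀ k, 1 ≤ k → A (σ 2) k = X k)
    (hG : ∀ x0 k n m, ¬ ex x0 k n m → ∀ x ∈ iv k n, ∀ y ∈ iv k m,
      G x0 k x y = G x0 (k + 1) x y) :
    RP σ o Λ nd A (rkO σ B G ex I) ≤ ∑ k ∈ Icc 1 Λ, (2 ^ k : ℝ)⁻¹ *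
      ∑ m0 ∈ Ico (0 : ℤ) (6 * 2 ^ (Λ - k)), ∑ m1 ∈ Ico (0 : ℤ) (6 * 2 ^ (Λ - k)),
        ∑ n ∈ Uz σ o (vk nd k) m0 m1, ∑ j ∈ I.filter (fun j => k ≤ (B j).K),
          |(B j).a * (B j).b| *
            ∑ θ ∈ Th (cP σ) (B j).K (crn3 k (m1, n, qz o m0 m1 n)) (B j).q,
              ∑ x0 ∈ iv k m0, fRes σ (B j) G ex Y X θ x0 k (m1, n, qz o m0 m1 n) := by
  refine (rp_sum0 hc hG).trans (le_of_eq ?_)
  refine sum_congr rfl fun k hk => ?_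
  refine congrArg (fun t => (2 ^ k : ℝ)⁻¹ * t) ?_
  refine sum_congr rfl fun m0 _ => sum_congr rfl fun m1 _ => sum_congr rfl fun n _ => ?_
  refine sum_congr rfl fun i _ => ?_
  refine congrArg (fun t => |(B i).a * (B i).b| * t) ?_
  refine sum_congr rfl fun θ _ => sum_congr rfl fun x0 _ => ?_
  exact tri_eq hY hX (mem_Icc.1 hk).1 i θ x0 _

/-- the letters of one birth -/
structure BOk (κ μ sg LG : ℝ) (B : Bth) (u : Tri) : Prop where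
  th : B.th = thC μ B.K B.q u
  vc : VC κ B.K B.q u B.v B.S1 B.S2 B.S3
  pos : 0 < rC B.K B.q u
  cp : B.cp = 2 * (μ * rC B.K B.q u ^ 2 * sd23 B.K B.q u ^ 2 / κ ^ 4) * LG /
    (sg * (rC B.K B.q u * sd23 B.K B.q u)) ^ 4
  xi : B.xi = (sg * (rC B.K B.q u * sd23 B.K B.q u)) ^ 2 / 4
  et : B.et = (sg * (rC B.K B.q u * sd23 B.K B.q u)) ^ 2 / 4

theorem BOk.cp_nonneg {b : Bth} {w : Tri} (h : BOk κ μ sg LG b w) (hμ : 0 ≤ μ)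
    (hLG : 0 ≤ LG) : 0 ≤ b.cp := by
  rw [h.cp]
  have := h.pos
  positivity

/-- the two moving slots and the gauge over one birth -/
structure SOk (σ : Equiv.Perm (Fin 4)) (b : Bth) (w : Tri) (Y X : ℕ → ℤ → ℝ)
    (G : ℤ → ℕ → ℤ → ℤ → ℝ) (ex : ℤ → ℕ → ℤ → ℤ → Prop) (LG e nN nD nL : ℝ) : Prop where
  hY : ∀ M0 R S : ℤ, ∃ T T' J, LineH b.K R S (iv b.K M0) (0 : ℤ) (dd σ 3 0) (dd σ 3 1)
    (dd σ 3 2) T T' J Y (nD * 2 ^ b.K) (nL * 2 ^ b.K)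
  hX : ∀ M0 R S : ℤ, ∃ T T' J, LineH b.K R S (iv b.K M0) (0 : ℤ) (dd σ 2 0) (dd σ 2 1)
    (dd σ 2 3) T T' J X (nD * 2 ^ b.K) (nL * 2 ^ b.K)
  cY : ∀ (k : ℕ) (s n : ℤ), ∑ x ∈ iv k n, Y k (s + dd σ 3 1 * x) ^ 2 ≤ e * 2 ^ k
  cX : ∀ (k : ℕ) (s n : ℤ), ∑ x ∈ iv k n, X k (s + dd σ 2 1 * x) ^ 2 ≤ e * 2 ^ k
  hG : ∀ (x0 : ℤ) (k : ℕ) (n m : ℤ), ¬ ex x0 k n m → ∀ x ∈ iv k n, ∀ y ∈ iv k m,
    G x0 k x y = G x0 (k + 1) x y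
  cG : ∀ (x0 : ℤ), ∀ k ≤ b.K, ∀ x m, ∑ y ∈ iv k m, G x0 k x y ^ 2 ≤ LG * 2 ^ k
  hNE : ∀ (p : Pt) (M0 R S : ℤ), ∑ θ ∈ Th (lc σ 0) b.K p b.q, ∑ x0 ∈ iv b.K M0,
    (E2 (iv b.K R) (iv b.K S) (kA b (G x0) θ b.K) +
      evE (kA b (G x0) θ) (evO b (ex x0) θ) b.K R S) ≤ nN * (32 ^ b.K * sd23 b.K b.q w ^ 2)

/-- one birth, one root -/
theorem res_one {b : Bth} {w : Tri} (ho : o = 1 ∨ o = -1) (hκ : 0 < κ) (hμ : 0 < μ)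
    (hsg : 0 < sg) (hLG : 0 < LG) (he : 0 < e) (hnD : 0 ≤ nD) (hnL : 0 ≤ nL)
    (hb : BOk κ μ sg LG b w) (hs : SOk σ b w Y X G ex LG e nN nD nL) (V : ℕ → Finset (ℤ × Pt))
    (M : ℤ × Pt) :
    ∑ θ ∈ Th (cP σ) b.K (crn3 b.K M.2) b.q, ∑ x0 ∈ iv b.K M.1, ∑ k ∈ Icc 1 b.K, (2 ^ k : ℝ)⁻¹ *
      ∑ m ∈ sbx V o b.K M.2 x0 k, fRes σ b G ex Y X θ x0 k m ≤
      32 ^ b.K * (pwC b.K b.q w * nRes κ μ sg LG e nN nD nL) := by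
  obtain ⟨TY, TY', JY, hLY⟩ := hs.hY M.1 M.2.1 M.2.2.1
  obtain ⟨TX, TX', JX, hLX⟩ := hs.hX M.1 M.2.1 M.2.2.2
  obtain ⟨h12, h13, h23⟩ := sd_pos hb.pos
  have h := rpart_num (c := cP σ) (p := crn3 b.K M.2) (u := w) ho
    (lc0_ne2 σ) (lc0_ne3 σ) hκ hμ b hb.th hb.vc M.2 (iv b.K M.1)
    (by rw [card_iv]; push_cast; exact le_rfl) (s := fun x0 k => sbx V o b.K M.2 x0 k)
    (fun x0 _ k _ => sbx_sub V o b.K M.2 x0 k) hLY hLX hnD hnL he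
    (fun k _ s n => hs.cY k s n) (fun k _ s n => hs.cX k s n)
    (fun x0 _ k n m h => hs.hG x0 k n m h) (fun x0 _ k hk x m => hs.cG x0 k hk x m) hb.pos h12
    h13 h23 hLG hsg hb.cp hb.xi hb.et (hs.hNE _ M.1 M.2.2.1 M.2.2.2)
  rw [mul_assoc] at h
  exact h

/-- **The residual part in numbers**, any family of births. -/
theorem tres_gen (ho : o = 1 ∨ o = -1) (hκ : 0 < κ) (hμ : 0 < μ) (hsg : 0 < sg) (hLG : 0 < LG)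
    (he : 0 < e) (hnD : 0 ≤ nD) (hnL : 0 ≤ nL) (hK : ∀ i ∈ I, (B i).K ≤ Λ)
    (hB : ∀ i ∈ I, BOk κ μ sg LG (B i) (u i))
    (hS : ∀ i ∈ I, SOk σ (B i) (u i) Y X G ex LG e nN nD nL)
    (hY : ∀ k, 1 ≤ k → A (σ 3) k = Y k) (hX : ∀ k, 1 ≤ k → A (σ 2) k = X k)
    (hG : ∀ x0 k n m, ¬ ex x0 k n m → ∀ x ∈ iv k n, ∀ y ∈ iv k m,
      G x0 k x y = G x0 (k + 1) x y) :
    ((|dd σ 3 2| : ℤ) : ℝ) * ((36 * (4 : ℝ) ^ Λ)⁻¹ *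
      RP σ o Λ nd A (rkO σ B G ex I)) ≤
      99 * ∑ i ∈ I, |(B i).a * (B i).b| * 8 ^ (B i).K *
        (pwC (B i).K (B i).q (u i) * nRes κ μ sg LG e nN nD nL) := by
  have ho1 : |o| ≤ 1 := by rcases ho with rfl | rfl <;> norm_num
  have hfib := tres_fib (σ := σ) ho1 (Λ := Λ) (V := vk nd) (t := I) (r := fun i => (B i).K) hK
    (q := fun i => (B i).q) (cf := fun i => (B i).a * (B i).b)
    (Rn := fun i => pwC (B i).K (B i).q (u i) * nRes κ μ sg LG e nN nD nL)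
    (Φ := fun j θ x0 k m => fRes σ (B j) G ex Y X θ x0 k m)
    (fun j θ x0 k m => fRes_nonneg _ _ _ _ _ _ _ _ _ _) (pt := crn3) cx_crn3
    (fun i hi M => res_one ho hκ hμ hsg hLG he hnD hnL (hB i hi) (hS i hi) (bxU σ o (vk nd) Λ) M)
  refine le_trans ?_ hfib
  refine mul_le_mul_of_nonneg_left ?_ (by exact_mod_cast abs_nonneg _)
  refine mul_le_mul_of_nonneg_left ?_ (by positivity)
  exact rp_sum (fun i hi => (hB i hi).cp_nonneg hμ.le hLG.le) hY hX hG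

/-! ### Slots and gauge cut by the used cells -/

section region

open Vale.Agent.P141.PL.H95 (gr)
open Vale.Agent.P141.H8 (Rgn Fam2 En)
open Vale.Agent.P141.H443 (Cells cu xc cu_evx)
open Vale.Agent.P141.H935 (Ys)
open Vale.Agent.P141.H379 (Z0 Z0_pos lineH_fam col_fam)
open Vale.Agent.P141.H150.Mv (nE nE_nonneg gau_ln hNE_cu)
open Vale.Agent.P141.H585 (thC_nonneg bthO posB mem_posB posB_sub rB sB23 ab_eq bw_eq cp_nonneg)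
open Vale.Agent.P141.H829 (bw bw_nonneg)
open Vale.Agent.P141.H998 (Bi PDec)
open Vale.Agent.P141.PL (self_mem_iv)

variable {s x : ℤ} {gd ud : ℕ → ℤ → Prop} {t : ℕ → ℤ → ℕ} {F : Fin 2 → ℕ → ℤ → ℝ} {G1 : ℤ → ℝ}
  {ee Kp C Lg M : ℝ} {P : ℤ → ℝ} {Bs : Finset Bi} {cf : Bi → ℝ}
  {E : Bi → Finset ℤ × Finset ℤ × Finset ℤ} {v : Bi → Tri} {Fi : ℕ → ℤ → ℝ}

/-- the gauge: the static slot, cut by the used cells -/
def gSt (σ : Equiv.Perm (Fin 4)) (ud : ℕ → ℤ → Prop) (G1 : ℤ → ℝ) (x0 : ℤ) (k : ℕ)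
    (x y : ℤ) : ℝ := cu ud G1 k (ln (dd σ 1 0 * x0) (dd σ 1 2) (dd σ 1 3) x y)

/-- the exits of the gauge -/
def xSt (σ : Equiv.Perm (Fin 4)) (ud : ℕ → ℤ → Prop) (Λ : ℕ) (x0 : ℤ) (k : ℕ) (n m : ℤ) : Prop :=
  Λ ≤ k ∨ ∃ x ∈ iv k n, ∃ y ∈ iv k m, xc ud k (ln (dd σ 1 0 * x0) (dd σ 1 2) (dd σ 1 3) x y)

theorem gSt_step (H : Cells 7 s ud Λ G1 C) (x0 : ℤ) (k : ℕ) (n m : ℤ)
    (h : ¬ xSt σ ud Λ x0 k n m) : ∀ x ∈ iv k n, ∀ y ∈ iv k m,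
      gSt σ ud G1 x0 k x y = gSt σ ud G1 x0 (k + 1) x y := by
  intro x hx y hy
  unfold xSt at h
  rw [not_or, not_le] at h
  exact cu_evx H.up h.1 h.2 hx hy

theorem b_dd0 (σ : Equiv.Perm (Fin 4)) : |dd σ 1 0| ≤ 2 ^ 7 :=
  (dd_le σ 1 0).trans (by norm_num)

theorem b_dd23 (σ : Equiv.Perm (Fin 4)) : |dd σ 1 2| + |dd σ 1 3| ≤ 2 ^ 7 :=
  (add_le_add (dd_le σ 1 2) (dd_le σ 1 3)).trans (by norm_num)

/-- **Slots and gauge over one birth**, from the region. -/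
theorem sOk_rgn (hR : Rgn (gr 7 s) gd Λ x ud) (hF : Fam2 (gr 7 s) ud Λ t F ee Kp)
    (hE : En (gr 7 s) ud G1 C) (hC : 0 ≤ C) (hee : 0 ≤ ee) (hKp : 0 ≤ Kp) (hκ : 0 < κ)
    (hκ1 : κ ≤ 1) (hLG : 256 * C ≤ LG) {b : Bth} {w : Tri} (hK : b.K ≤ Λ) (hth : 0 ≤ b.th)
    (hv : VC κ b.K b.q w b.v b.S1 b.S2 b.S3) :
    SOk σ b w (Z0 ud t (F 1)) (Z0 ud t (F 0)) (gSt σ ud G1) (xSt σ ud Λ) LG (259 * ee)
      (nE κ C) (3710 * (ee * (Kp + 1))) (259 * ee) where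
  hY M0 R S := ⟨_, _, _, lineH_fam hR hee hKp hF 1 hK (subset_refl _) 0 (dd_ne σ (by decide))
    (dd_ne σ (by decide)) (dd_le σ 3 0) (dd_le σ 3 1) (dd_le σ 3 2)⟩
  hX M0 R S := ⟨_, _, _, lineH_fam hR hee hKp hF 0 hK (subset_refl _) 0 (dd_ne σ (by decide))
    (dd_ne σ (by decide)) (dd_le σ 2 0) (dd_le σ 2 1) (dd_le σ 2 3)⟩
  cY k s n := col_fam hR hee hF 1 (dd_ne σ (by decide)) (dd_le σ 3 1) k s n
  cX k s n := col_fam hR hee hF 0 (dd_ne σ (by decide)) (dd_le σ 2 1) k s n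
  hG := gSt_step (Cells.of hR hE)
  cG x0 k hk x m := by
    have h := (gau_ln (Cells.of hR hE) hC hK (dd_ne σ (by decide)) (dd_ne σ (by decide))
      (b_dd0 σ) (b_dd23 σ) (subset_refl (iv b.K (ix b.K x0))) 0 0).hΛ x0 (self_mem_iv _ _) k hk
      x m
    refine h.trans (mul_le_mul_of_nonneg_right ?_ (by positivity))
    linarith
  hNE p M0 R S := hNE_cu (Cells.of hR hE) hC hK (dd_ne σ (by decide)) (dd_ne σ (by decide))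
    (b_dd0 σ) (b_dd23 σ) (subset_refl _) (lc0_ne1 σ) (lc0_ne3 σ) hκ hκ1 hth hv p R S

/-- **The canonical births.** -/
theorem bOk_bthO {b : Bi} (hv : VC κ b.1.1 b.1.2 b.2 (v b) (E b).1 (E b).2.1 (E b).2.2)
    (hb : 0 < rB b) : BOk κ μ sg (Lg / 2) (bthO κ μ sg Lg cf E v b) b.2 where
  th := rfl
  vc := hv
  pos := hb
  cp := by
    show μ * rB b ^ 2 * sB23 b ^ 2 / κ ^ 4 * Lg / (sg * rB b * sB23 b) ^ 4 =
      2 * (μ * rB b ^ 2 * sB23 b ^ 2 / κ ^ 4) * (Lg / 2) / (sg * (rB b * sB23 b)) ^ 4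
    ring
  xi := by
    show (sg * rB b * sB23 b) ^ 2 / 4 = (sg * (rB b * sB23 b)) ^ 2 / 4
    ring
  et := by
    show (sg * rB b * sB23 b) ^ 2 / 4 = (sg * (rB b * sB23 b)) ^ 2 / 4
    ring

/-- the number of the residual part on a region -/
def kRes (κ μ sg Lg e C Kp : ℝ) : ℝ :=
  99 * nRes κ μ sg (Lg / 2) (259 * e) (nE κ C) (3710 * (e * (Kp + 1))) (259 * e)

theorem nRes_nonneg (hκ : 0 < κ) (hsg : 0 ≤ sg) (hnD : 0 ≤ nD) (hnL : 0 ≤ nL) :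
    0 ≤ nRes κ μ sg LG e (nE κ C) nD nL := by
  unfold nRes
  positivity

/-- **The residual part of the main family in numbers.** -/
theorem tres_pdec (ho : o = 1 ∨ o = -1) (hR : Rgn (gr 7 s) gd Λ x ud)
    (hF : Fam2 (gr 7 s) ud Λ t F ee Kp) (hE : En (gr 7 s) ud G1 C) (hC : 0 ≤ C) (hee : 0 < ee)
    (hKp : 0 ≤ Kp) (hκ : 0 < κ) (hκ1 : κ ≤ 1) (hμ : 0 < μ) (hsg : 0 < sg) (hLg0 : 0 < Lg)
    (hLg : 512 * C ≤ Lg) (hd : PDec s (lc σ 0) Λ x κ μ M P Bs cf E v Fi)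
    (h2 : ∀ k, 1 ≤ k → A (σ 2) k = Ys ud t (F 0) k)
    (h3 : ∀ k, 1 ≤ k → A (σ 3) k = Ys ud t (F 1) k) :
    ((|dd σ 3 2| : ℤ) : ℝ) * ((36 * (4 : ℝ) ^ Λ)⁻¹ *
      RP σ o Λ nd A (rkO σ (bthO κ μ sg Lg cf E v) (gSt σ ud G1) (xSt σ ud Λ) (posB Bs))) ≤
      kRes κ μ sg Lg ee C Kp * M := by
  have hp : ∀ k : ℕ, 1 ≤ k → k ≠ 0 := fun k hk => by omega
  have hK : ∀ b ∈ posB Bs, b.1.1 ≤ Λ := fun b hb => (hd.bok b (posB_sub hb)).le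
  have h := tres_gen (σ := σ) (A := A) (nd := nd) (Λ := Λ) (B := bthO κ μ sg Lg cf E v)
    (u := fun b => b.2) (I := posB Bs) (Y := Z0 ud t (F 1)) (X := Z0 ud t (F 0))
    (G := gSt σ ud G1) (ex := xSt σ ud Λ) (LG := Lg / 2) (e := 259 * ee) (nN := nE κ C)
    (nD := 3710 * (ee * (Kp + 1))) (nL := 259 * ee) ho hκ hμ hsg (by linarith) (by positivity)
    (by positivity) (by positivity) hK
    (fun b hb => bOk_bthO (hd.vc b (posB_sub hb)) (mem_posB.1 hb).2)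
    (fun b hb => sOk_rgn hR hF hE hC hee.le hKp hκ hκ1 (by linarith) (hK b hb)
      (thC_nonneg hμ.le _ _ _) (hd.vc b (posB_sub hb)))
    (fun k hk => by rw [h3 k hk, Z0_pos (hp k hk)]) (fun k hk => by rw [h2 k hk, Z0_pos (hp k hk)])
    (gSt_step (Cells.of hR hE))
  refine h.trans ?_
  have e1 : ∀ b ∈ posB Bs, |(bthO κ μ sg Lg cf E v b).a * (bthO κ μ sg Lg cf E v b).b| *
      8 ^ (bthO κ μ sg Lg cf E v b).K * (pwC (bthO κ μ sg Lg cf E v b).K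
        (bthO κ μ sg Lg cf E v b).q b.2 * nRes κ μ sg (Lg / 2) (259 * ee) (nE κ C)
          (3710 * (ee * (Kp + 1))) (259 * ee)) =
      |cf b| * bw b * nRes κ μ sg (Lg / 2) (259 * ee) (nE κ C)
          (3710 * (ee * (Kp + 1))) (259 * ee) := by
    intro b hb
    rw [ab_eq (mem_posB.1 hb).2, bw_eq]
    show |cf b| * 8 ^ b.1.1 * (pwC b.1.1 b.1.2 b.2 * _) = _
    ring
  rw [sum_congr rfl e1, ← sum_mul]
  have h0 : 0 ≤ nRes κ μ sg (Lg / 2) (259 * ee) (nE κ C) (3710 * (ee * (Kp + 1))) (259 * ee) :=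
    nRes_nonneg hκ hsg.le (by positivity) (by positivity)
  have hm : ∑ b ∈ posB Bs, |cf b| * bw b ≤ M :=
    (sum_le_sum_of_subset_of_nonneg posB_sub fun b _ _ =>
      mul_nonneg (abs_nonneg _) (bw_nonneg b)).trans hd.mass
  unfold kRes
  calc _ ≤ 99 * (M * nRes κ μ sg (Lg / 2) (259 * ee) (nE κ C) (3710 * (ee * (Kp + 1)))
      (259 * ee)) := by gcongr
    _ = _ := by ring

/-- **The residual part of the main family in numbers**, births with positive ratio. -/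
theorem tres_pos (ho : o = 1 ∨ o = -1) (hR : Rgn (gr 7 s) gd Λ x ud)
    (hF : Fam2 (gr 7 s) ud Λ t F ee Kp) (hE : En (gr 7 s) ud G1 C) (hC : 0 ≤ C) (hee : 0 < ee)
    (hKp : 0 ≤ Kp) (hκ : 0 < κ) (hκ1 : κ ≤ 1) (hμ : 0 < μ) (hsg : 0 < sg) (hLg0 : 0 < Lg)
    (hLg : 512 * C ≤ Lg) (hd : PDec s (lc σ 0) Λ x κ μ M P Bs cf E v Fi)
    (hpos : ∀ b ∈ Bs, 0 < rB b)
    (h2 : ∀ k, 1 ≤ k → A (σ 2) k = Ys ud t (F 0) k)
    (h3 : ∀ k, 1 ≤ k → A (σ 3) k = Ys ud t (F 1) k) :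
    ((|dd σ 3 2| : ℤ) : ℝ) * ((36 * (4 : ℝ) ^ Λ)⁻¹ *
      RP σ o Λ nd A (rkO σ (bthO κ μ sg Lg cf E v) (gSt σ ud G1) (xSt σ ud Λ) Bs)) ≤
      kRes κ μ sg Lg ee C Kp * M := by
  have h := tres_pdec (nd := nd) ho hR hF hE hC hee hKp hκ hκ1 hμ hsg hLg0 hLg hd h2 h3
  rwa [show posB Bs = Bs from filter_true_of_mem hpos] at h

end region

end

end Vale.Agent.P141.H24
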