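import Vale.Agent.P141.H998.PMain

/-!
# P141, line END: a zone of small width at the border of the root

`Zn s L J x k y`: the cell `(k, y)` lies strictly below a cell of scale `L - J` which touches the
border of the root `(L, x)`.  `Ou`: the region without the zone.
`T4_zone`: the black box pays the zone with the factor `2 ^ (-J)`.
`pmain_zone`: `H998.pmain_end` with the zone cut off; only the births of the scales `≥ L - J` are
left, at every scale.
`mass_le`, `mass_cd`: for these births the sum of the local masses `|cf| 4 ^ r w` over **all**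
births is at most `2 ^ (J + 7)` times the mass of the family.
-/

namespace Vale.Agent.P141.H24

open Finset
open Vale.Agent.P141.H315 Vale.Agent.P141.H347 Vale.Agent.P141.H8 Vale.Agent.P141.H935
open Vale.Agent.P141.H998
open Vale.Agent.P141.PL (Pt el)
open Vale.Agent.P141.PL.H315 (cube3 Tri atm)
open Vale.Agent.P141.PL.H318 (a1 csz)
open Vale.Agent.P141.PL.H95 (gr mem_gr card_gr)
open Vale.Agent.P141.H585 (pwC rC VC mnA)
open Vale.Agent.P141.H610 (BoxHyp T4_of_box)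
open Vale.Agent.P141.PL.H855 (N4)

noncomputable section

open scoped Classical

variable {α : Type*} {s : ℤ} {gd ud : ℕ → ℤ → Prop} {L J : ℕ} {x : ℤ}

/-- the zone: the cells strictly below the cells of scale `L - J` which touch the border -/
def Zn (s : ℤ) (L J : ℕ) (x : ℤ) (k : ℕ) (y : ℤ) : Prop := k < L - J ∧ Bdc s L x (L - J) y

/-- the used cells which are not in the zone -/
def Ou (s : ℤ) (L J : ℕ) (x : ℤ) (ud : ℕ → ℤ → Prop) : ℕ → ℤ → Prop :=
  An ud fun k y => ¬ Zn s L J x k y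

theorem zn_const {k : ℕ} {y z : ℤ} (h : z ∈ (gr 7 s).cube k y) :
    Zn s L J x k z ↔ Zn s L J x k y := by
  unfold Zn
  constructor
  · rintro ⟨h1, h2⟩
    exact ⟨h1, (bdc_const s L x (L - J) y z ((gr 7 s).cube_subset h1.le
      ((gr 7 s).mem (L - J) y) h)).1 h2⟩
  · rintro ⟨h1, h2⟩
    exact ⟨h1, (bdc_const s L x (L - J) y z ((gr 7 s).cube_subset h1.le
      ((gr 7 s).mem (L - J) y) h)).2 h2⟩

theorem ou_sub {k : ℕ} {y : ℤ} (h : Ou s L J x ud k y) : ud k y := h.1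

/-- at the scales `≥ L - J` nothing is removed -/
theorem ou_iff {k : ℕ} (hk : L - J ≤ k) {y : ℤ} : Ou s L J x ud k y ↔ ud k y := by
  unfold Ou An Zn
  constructor
  · exact fun h => h.1
  · exact fun h => ⟨h, fun h' => absurd h'.1 (by omega)⟩

/-- **The region without the zone is a region.** -/
theorem rgn_ou (h : Rgn (gr 7 s) gd L x ud) : Rgn (gr 7 s) gd L x (Ou s L J x ud) where
  const k y z hz := by
    show (ud k z ∧ ¬ Zn s L J x k z) ↔ (ud k y ∧ ¬ Zn s L J x k y)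
    rw [h.const k y z hz, zn_const hz]
  up k hk y hu := by
    refine ⟨h.up k hk y hu.1, fun h1 => hu.2 ⟨by have := h1.1; omega, h1.2⟩⟩
  bel k y hu := h.bel k y hu.1
  sub k y hu := h.sub k y hu.1

theorem fam2_ou {tt : ℕ → ℤ → ℕ} {W : Fin 2 → ℕ → ℤ → ℝ} {e K : ℝ}
    (h : Fam2 (gr 7 s) ud L tt W e K) : Fam2 (gr 7 s) (Ou s L J x ud) L tt W e K where
  lab := h.lab
  en j k y hu := h.en j k y hu.1
  pack k y hu := by
    refine le_trans ?_ (h.pack k y hu.1)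
    unfold tops
    refine sum_le_sum fun i _ => sum_le_sum fun z _ => ?_
    by_cases h4 : Ou s L J x ud i z ∧ tt i z = i
    · rw [if_pos h4, if_pos ⟨h4.1.1, h4.2⟩]
    · rw [if_neg h4]; split_ifs <;> norm_num

/-! ### The zone is paid by the black box -/

/-- the tops of the zone -/
def Tz (s : ℤ) (L J : ℕ) (x : ℤ) (i : ℕ) (z : ℤ) : Prop := i = L - J ∧ Bdc s L x i z

/-- the measure of the tops of the zone -/
theorem sum_zone (hJ : J ≤ L) : ∑ i ∈ range (L + 1), ∑ z ∈ (gr 7 s).cube L x,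
    (if ud i z ∧ Tz s L J x i z then (1 : ℝ) else 0) ≤
      2 * (2 ^ J)⁻¹ * cd (gr 7 s) L x := by
  have h1 : ∀ i ∈ range (L + 1), i ≠ L - J → ∑ z ∈ (gr 7 s).cube L x,
      (if ud i z ∧ Tz s L J x i z then (1 : ℝ) else 0) = 0 := by
    intro i _ hi
    exact sum_eq_zero fun z _ => if_neg fun h => hi h.2.1
  rw [sum_eq_single (L - J) h1 (fun h => absurd (mem_range.2 (by omega)) h)]
  have h2 : ∑ z ∈ (gr 7 s).cube L x,
      (if ud (L - J) z ∧ Tz s L J x (L - J) z then (1 : ℝ) else 0) =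
      ∑ z ∈ (gr 7 s).cube L x, (if ud (L - J) z ∧ Bdc s L x (L - J) z then (1 : ℝ) else 0) := by
    refine sum_congr rfl fun z _ => ?_
    by_cases h3 : ud (L - J) z ∧ Bdc s L x (L - J) z
    · rw [if_pos h3, if_pos ⟨h3.1, rfl, h3.2⟩]
    · rw [if_neg h3, if_neg fun h4 => h3 ⟨h4.1, h4.2.2⟩]
  rw [h2]
  refine (sum_bdc s L x (L - J)).trans (le_of_eq ?_)
  rw [H610.cd_gr]
  obtain ⟨n, rfl⟩ : ∃ n, L = n + J := ⟨L - J, by omega⟩
  rw [Nat.add_sub_cancel]
  have : (2 : ℝ) ^ (n + J + 7) = 2 ^ J * 2 ^ (n + 7) := by rw [← pow_add]; ring_nf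
  rw [this]
  have h3 : (2 : ℝ) ^ J ≠ 0 := by positivity
  field_simp

/-- **The zone.** -/
theorem T4_zone {nv : N4 (gr 7 s) α} {CP : ℝ} (hCP : 0 ≤ CP) (hb : BoxHyp nv gd CP)
    (σ : Equiv.Perm (Fin 4)) (h : Rgn (gr 7 s) gd L x ud) (hJ : J ≤ L) {A B C D : ℕ → ℤ → ℝ}
    {a b c d : ℝ} (ha : 0 ≤ a) (hb0 : 0 ≤ b) (hc : 0 ≤ c) (hd : 0 ≤ d)
    (hA : SlR s gd ud A a) (hB : SlR s gd ud B b) (hC : SlR s gd ud C c)
    (hD : SlR s gd ud D d) :
    T4 (nv.toNV σ) (An ud (Zn s L J x)) A B C D ≤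
      CP * (a * b * c * d) / 64 * ((2 ^ J)⁻¹ * cd (gr 7 s) L x) := by
  have hQ : ∀ k y, ud k y → Zn s L J x k y → ∃ i, k ≤ i ∧ i ≤ L ∧ Tz s L J x i y := by
    intro k y _ hz
    exact ⟨L - J, hz.1.le, Nat.sub_le L J, rfl, hz.2⟩
  have hP' : ∀ i y z, z ∈ (gr 7 s).cube i y → (Tz s L J x i z ↔ Tz s L J x i y) := by
    intro i y z hz
    show (i = L - J ∧ Bdc s L x i z) ↔ (i = L - J ∧ Bdc s L x i y)
    rw [bdc_const s L x i y z hz]
  have hT : ∀ i ≤ L, ∀ z ∈ (gr 7 s).cube L x, ud i z → Tz s L J x i z →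
      T4 (nv.toNV σ) (Bw (gr 7 s) ud i z) A B C D ≤
        CP * (a * b * c * d) / 128 * cd (gr 7 s) i z := by
    intro i hi z _ hu _
    have hR := rgn_bw h hi z
    have hs : ∀ k y, Bw (gr 7 s) ud i z k y → ud k y := fun k y hy => hy.1
    have ht : Bw (gr 7 s) ud i z i z := ⟨hu, le_rfl, (gr 7 s).mem i z⟩
    exact T4_of_box hb σ hR ht (hA i z _ hR hs ht) (hB i z _ hR hs ht) (hC i z _ hR hs ht)
      (hD i z _ hR hs ht)
  have h1 := T4_tops (nv := nv.toNV σ) (b := CP * (a * b * c * d) / 128) (A := A) (B := B)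
    (C := C) (D := D) h hQ hP' hT
  have h2 : 0 ≤ CP * (a * b * c * d) / 128 := by positivity
  refine h1.trans ((mul_le_mul_of_nonneg_left (sum_zone hJ) h2).trans (le_of_eq ?_))
  ring

/-! ### The masses of the remaining births -/

/-- **All births of the scales `≥ L - J`**: the sum of the local masses. -/
theorem mass_le {ι : Type*} (t : Finset ι) (r : ι → ℕ) (f : ι → ℝ) (hf : ∀ j ∈ t, 0 ≤ f j) :
    ∑ j ∈ t.filter (fun j => L - J ≤ r j), f j * 4 ^ r j ≤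
      2 ^ J * (2 ^ L)⁻¹ * ∑ j ∈ t, f j * 8 ^ r j := by
  rw [mul_sum]
  have h1 : ∑ j ∈ t.filter (fun j => L - J ≤ r j), f j * 4 ^ r j ≤
      ∑ j ∈ t.filter (fun j => L - J ≤ r j), 2 ^ J * (2 ^ L)⁻¹ * (f j * 8 ^ r j) := by
    refine sum_le_sum fun j hj => ?_
    obtain ⟨h2, h3⟩ := mem_filter.1 hj
    have h4 : (1 : ℝ) ≤ 2 ^ J * (2 ^ L)⁻¹ * 2 ^ r j := by
      have h5 : (2 : ℝ) ^ L ≤ 2 ^ J * 2 ^ r j := by
        rw [← pow_add]
        exact pow_le_pow_right₀ (by norm_num) (by omega)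
      calc (1 : ℝ) = (2 ^ L)⁻¹ * 2 ^ L := by
            rw [inv_mul_cancel₀ (by positivity)]
        _ ≤ (2 ^ L)⁻¹ * (2 ^ J * 2 ^ r j) := mul_le_mul_of_nonneg_left h5 (by positivity)
        _ = _ := by ring
    have h6 : (8 : ℝ) ^ r j = 2 ^ r j * 4 ^ r j := by rw [← mul_pow]; norm_num
    have h7 : 0 ≤ f j * 4 ^ r j := mul_nonneg (hf j h2) (by positivity)
    calc f j * 4 ^ r j = 1 * (f j * 4 ^ r j) := (one_mul _).symm
      _ ≤ (2 ^ J * (2 ^ L)⁻¹ * 2 ^ r j) * (f j * 4 ^ r j) := mul_le_mul_of_nonneg_right h4 h7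
      _ = _ := by rw [h6]; ring
  refine h1.trans (sum_le_sum_of_subset_of_nonneg (filter_subset _ _) fun j hj _ => ?_)
  have := hf j hj
  positivity

/-- the same with the mass of the family given against the root cell -/
theorem mass_cd {ι : Type*} (t : Finset ι) (r : ι → ℕ) (f : ι → ℝ) (hf : ∀ j ∈ t, 0 ≤ f j) {M : ℝ}
    (hM : ∑ j ∈ t, f j * 8 ^ r j ≤ M * cd (gr 7 s) L x) :
    ∑ j ∈ t.filter (fun j => L - J ≤ r j), f j * 4 ^ r j ≤ 128 * 2 ^ J * M := by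
  refine (mass_le t r f hf).trans ?_
  refine (mul_le_mul_of_nonneg_left hM (by positivity)).trans (le_of_eq ?_)
  rw [H610.cd_gr]
  have : (2 : ℝ) ^ (L + 7) = 128 * 2 ^ L := by rw [pow_add]; norm_num; ring
  rw [this]
  have h3 : (2 : ℝ) ^ L ≠ 0 := by positivity
  field_simp

/-! ### The glue -/

variable {c : Pt} {κ μ : ℝ}

/-- a birth of a scale `< i` vanishes on the cells inside the cells of scale `i` which do not touch
the border -/
theorem a1_zero {r : ℕ} {q : Pt} {i : ℕ}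
    (hbd : ∀ y ∈ cube3 r q, Bdc s L x i (el c y)) {y z : ℤ} (hy : ¬ Bdc s L x i y)
    (hz : z ∈ (gr 7 s).cube i y) (v : Tri) : a1 c r (q, v) z = 0 := by
  unfold a1
  refine sum_eq_zero fun y' hy' => if_neg fun he => hy ?_
  have h1 := hbd y' hy'
  rw [he] at h1
  exact (bdc_const s L x i y z hz).1 h1

/-- **PMain without the zone**: only the births of the scales `≥ max k (L - J)` at the scale `k`,
read on the cells which are not in the zone and do not touch the border. -/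
theorem pmain_zone {ι : Type*} (t : Finset ι)
    (r : ι → ℕ) (q : ι → Pt) (u : ι → Tri) (cf : ι → ℝ) (hr : ∀ j ∈ t, r j ≤ L) (hJ : J ≤ L)
    (hbd : ∀ j ∈ t, ∀ k, r j < k → k ≤ L → ∀ y ∈ cube3 (r j) (q j), Bdc s L x k (el c y))
    (P : ℤ → ℝ) (hP : ∀ z ∈ (gr 7 s).cube L x, P z = ∑ j ∈ t, cf j * a1 c (r j) (q j, u j) z)
    (hc : csz c ≤ 2 ^ 7) (h1 : c.1 ≠ 0) (h2 : c.2.1 ≠ 0) (h3 : c.2.2 ≠ 0) (hκ : 0 < κ)
    (hμ : 0 < μ) :
    ∃ (v : ι → Tri) (E1 E2 E3 : ι → Finset ℤ),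
      (∀ j, VC κ (r j) (q j) (u j) (v j) (E1 j) (E2 j) (E3 j)) ∧
      ∀ (nv : N4 (gr 7 s) α) (CP : ℝ) (σ : Equiv.Perm (Fin 4)) (G1 : ℤ → ℝ) (tt : ℕ → ℤ → ℕ)
        (W : Fin 2 → ℕ → ℤ → ℝ) (eP eG e Kp : ℝ), 0 ≤ CP → BoxHyp nv gd CP →
        Rgn (gr 7 s) gd L x ud → 0 < eP → 0 < eG → 0 < e → 1 ≤ Kp → En (gr 7 s) ud P eP →
        En (gr 7 s) ud G1 eG → Fam2 (gr 7 s) ud L tt W e Kp →
        T4 (nv.toNV σ) ud (st P) (st G1) (mv tt (W 0)) (mv tt (W 1)) ≤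
          T4 (nv.toNV σ) (An (Ou s L J x ud) fun k y => ¬ Bdc s L x k y)
            (fun k => ∑ j ∈ t.filter (fun j => max k (L - J) ≤ r j),
              cf j • a1 c (r j) (q j, mnA (μ / rC (r j) (q j) (u j) ^ 2) (E1 j) (E2 j) (E3 j)
                (r j) k (v j))) (st G1) (mv tt (W 0)) (mv tt (W 1)) +
          CP * √eG * e * (64 * (68 * 10 ^ 4) * Kp * (6 * κ + 8 / (κ ^ 12 * √μ)) *
            ∑ j ∈ t, |cf j| * (pwC (r j) (q j) (u j) * 8 ^ r j) +
            (68 ^ 4 / 32 + 722500 * Kp * (2 ^ J)⁻¹) * √eP * cd (gr 7 s) L x) := by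
  obtain ⟨v, E1, E2, E3, hv, H⟩ := pmain_end (α := α) (ud := Ou s L J x ud) (gd := gd) t r q u cf
    hr hbd P hP hc h1 h2 h3 hκ hμ
  refine ⟨v, E1, E2, E3, hv, fun nv CP σ G1 tt W eP eG e Kp hCP hb hR heP heG he hK hPe hGe hW => ?_⟩
  have k1 := H nv CP σ G1 tt W eP eG e Kp hCP hb (rgn_ou hR) heP heG he hK
    (fun k y hy => hPe k y hy.1) (fun k y hy => hGe k y hy.1) (fam2_ou hW)
  have k2 := T4_zone (J := J) hCP hb σ hR hJ (by positivity) (by positivity) (by positivity)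
    (by positivity) (slR_st (s := s) (gd := gd) heP hPe) (slR_st (s := s) (gd := gd) heG hGe)
    (slR_fam hR he hK hW 0) (slR_fam hR he hK hW 1)
  have k3 := T4_split (nv := nv.toNV σ) (ud := ud) (Zn s L J x) (st P) (st G1) (mv tt (W 0))
    (mv tt (W 1))
  have k4 : T4 (nv.toNV σ) (An (Ou s L J x ud) fun k y => ¬ Bdc s L x k y)
      (fun k => ∑ j ∈ t.filter (fun j => k ≤ r j),
        cf j • a1 c (r j) (q j, mnA (μ / rC (r j) (q j) (u j) ^ 2) (E1 j) (E2 j) (E3 j)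
          (r j) k (v j))) (st G1) (mv tt (W 0)) (mv tt (W 1)) =
      T4 (nv.toNV σ) (An (Ou s L J x ud) fun k y => ¬ Bdc s L x k y)
      (fun k => ∑ j ∈ t.filter (fun j => max k (L - J) ≤ r j),
        cf j • a1 c (r j) (q j, mnA (μ / rC (r j) (q j) (u j) ^ 2) (E1 j) (E2 j) (E3 j)
          (r j) k (v j))) (st G1) (mv tt (W 0)) (mv tt (W 1)) := by
    rw [T4_eq1, T4_eq1]
    refine T1_congr (s := sl1 (nv.toNV σ) (st G1) (mv tt (W 0)) (mv tt (W 1)))
      (g := gr 7 s) (cg1 _ _ _ _) fun k y hu z hz => ?_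
    rw [Finset.sum_apply, Finset.sum_apply, sum_filter, sum_filter]
    refine sum_congr rfl fun j hj => ?_
    by_cases e1 : max k (L - J) ≤ r j
    · rw [if_pos e1, if_pos (le_trans (le_max_left _ _) e1)]
    · rw [if_neg e1]
      split_ifs with e2
      · have e3 : r j < L - J := by omega
        have e4 : k < L - J := by omega
        have e5 : ¬ Bdc s L x (L - J) y := fun h => hu.1.2 ⟨e4, h⟩
        have e6 : z ∈ (gr 7 s).cube (L - J) y :=
          (gr 7 s).cube_subset e4.le ((gr 7 s).mem (L - J) y) hz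
        show cf j * a1 c (r j) (q j, _) z = 0
        rw [a1_zero (hbd j hj (L - J) e3 (Nat.sub_le L J)) e5 e6, mul_zero]
      · rfl
  have e2 : √(e * Kp) * √(e * Kp) = e * Kp := Real.mul_self_sqrt (by positivity)
  have e3 : CP * (68 * √eP * (68 * √eG) * (100 * √(e * Kp)) * (100 * √(e * Kp))) / 64 *
      ((2 ^ J)⁻¹ * cd (gr 7 s) L x) =
      CP * √eG * e * (722500 * Kp * (2 ^ J)⁻¹ * √eP * cd (gr 7 s) L x) := by
    have : CP * (68 * √eP * (68 * √eG) * (100 * √(e * Kp)) * (100 * √(e * Kp))) =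
        CP * √eP * √eG * (68 ^ 2 * 10 ^ 4) * (√(e * Kp) * √(e * Kp)) := by ring
    rw [this, e2]
    ring
  rw [e3] at k2
  rw [k4] at k1
  rw [k3]
  have k5 : T4 (nv.toNV σ) (An ud fun k y => ¬ Zn s L J x k y) (st P) (st G1) (mv tt (W 0))
      (mv tt (W 1)) = T4 (nv.toNV σ) (Ou s L J x ud) (st P) (st G1) (mv tt (W 0))
      (mv tt (W 1)) := rfl
  rw [k5]
  have e4 : CP * √eG * e * (64 * (68 * 10 ^ 4) * Kp * (6 * κ + 8 / (κ ^ 12 * √μ)) *
      ∑ j ∈ t, |cf j| * (pwC (r j) (q j) (u j) * 8 ^ r j) +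
      (68 ^ 4 / 32 + 722500 * Kp * (2 ^ J)⁻¹) * √eP * cd (gr 7 s) L x) =
      CP * √eG * e * (64 * (68 * 10 ^ 4) * Kp * (6 * κ + 8 / (κ ^ 12 * √μ)) *
      ∑ j ∈ t, |cf j| * (pwC (r j) (q j) (u j) * 8 ^ r j) + 68 ^ 4 / 32 * √eP * cd (gr 7 s) L x) +
      CP * √eG * e * (722500 * Kp * (2 ^ J)⁻¹ * √eP * cd (gr 7 s) L x) := by ring
  rw [e4]
  linarith

end

end Vale.Agent.P141.H24
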